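import Vale.Agent.P142.H521.BMain

/-!
# P142: Brennan's conjecture and the Bergman projection

(1) is Brennan's conjecture exactly as posed, in both forms.  (2) is the operator form: for every
exponent `p` in Brennan's range `4/3 < p < 4` the Bergman projections of ALL simply connected
domains `W` are bounded on `L^p(W)`, with one constant for all `W`.  It contains (1), because
`φ'/4` is the Bergman projection of a bounded function with compact support, by (3).  (4) says that
the boundedness fails for every exponent outside Brennan's range.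

The definitions are `bergK φ z w = φ'(z) conj(φ'(w)) / (π (1 - φ(z) conj(φ(w)))²)`, the Bergman
kernel of `W` (with `φ` a conformal bijection of `W` onto the unit disc), and
`bergP W φ g z = ∫_W bergK φ z w * g w dA(w)`, the Bergman projection of `g`.
-/

open MeasureTheory Metric Set
open scoped ENNReal ComplexConjugate

namespace Vale.Agent.Results.P142.BergmanProjection

open Vale.Agent.P142

/-- **Brennan's conjecture and the `L^p` theory of Bergman projections.** -/
theorem result :
    -- (1) Brennan's conjecture, in both forms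
    ((∀ (W : Set ℂ) (φ : ℂ → ℂ), IsOpen W → DifferentiableOn ℂ φ W → BijOn φ W (ball 0 1) →
      ∀ s : ℝ, 4 / 3 < s → s < 4 →
        ∫⁻ w in W, ENNReal.ofReal (‖deriv φ w‖ ^ s) < ⊤) ∧
    (∀ f : ℂ → ℂ, DifferentiableOn ℂ f (ball 0 1) → InjOn f (ball 0 1) →
      ∀ t : ℝ, -2 < t → t < 2 / 3 →
        ∫⁻ z in ball (0 : ℂ) 1, ENNReal.ofReal (‖deriv f z‖ ^ t) < ⊤)) ∧
    -- (2) for `4/3 < p < 4` the Bergman projection is bounded on `L^p(W)`, uniformly in `W`
    (∀ p : ℝ, 4 / 3 < p → p < 4 → ∃ C : ℝ, 0 < C ∧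
      ∀ (W : Set ℂ) (φ : ℂ → ℂ), IsOpen W → DifferentiableOn ℂ φ W → BijOn φ W (ball 0 1) →
      ∀ g : ℂ → ℂ, MemLp g (ENNReal.ofReal p) (volume.restrict W) →
        -- the integral defining `B g` converges at every point, and `B g` is holomorphic
        (∀ z ∈ W, IntegrableOn (fun w => bergK φ z w * g w) W) ∧
        DifferentiableOn ℂ (bergP W φ g) W ∧
        -- `B` is bounded on `L^p(W)`, and so is the operator with the kernel `|K|`
        eLpNorm (bergP W φ g) (ENNReal.ofReal p) (volume.restrict W) ≤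
          ENNReal.ofReal C * eLpNorm g (ENNReal.ofReal p) (volume.restrict W) ∧
        eLpNorm (fun z => ∫⁻ w in W, ‖bergK φ z w‖ₑ * ‖g w‖ₑ) (ENNReal.ofReal p)
          (volume.restrict W) ≤
          ENNReal.ofReal C * eLpNorm g (ENNReal.ofReal p) (volume.restrict W) ∧
        -- `B` reproduces the holomorphic functions in `L^p(W)`
        (DifferentiableOn ℂ g W → EqOn (bergP W φ g) g W) ∧
        -- `B` is symmetric
        ∀ h : ℂ → ℂ, MemLp h (ENNReal.ofReal (p / (p - 1))) (volume.restrict W) →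
          ∫ z in W, bergP W φ g z * conj (h z) = ∫ z in W, g z * conj (bergP W φ h z)) ∧
    -- (3) `φ'/4` is always the Bergman projection of a bounded function with compact support
    (∀ (W : Set ℂ) (φ : ℂ → ℂ), IsOpen W → DifferentiableOn ℂ φ W → BijOn φ W (ball 0 1) →
      ∃ g : ℂ → ℂ, Measurable g ∧ (∃ M : ℝ, ∀ w, ‖g w‖ ≤ M) ∧
        (∃ K ⊆ W, IsCompact K ∧ ∀ w, w ∉ K → g w = 0) ∧
        ∀ z ∈ W, bergP W φ g z = deriv φ z / 4) ∧
    -- (4) the range of exponents is sharp
    (∃ (W : Set ℂ) (φ : ℂ → ℂ), IsOpen W ∧ DifferentiableOn ℂ φ W ∧ BijOn φ W (ball 0 1) ∧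
      ∃ g : ℂ → ℂ, Measurable g ∧ (∃ M : ℝ, ∀ w, ‖g w‖ ≤ M) ∧
        (∃ K ⊆ W, IsCompact K ∧ ∀ w, w ∉ K → g w = 0) ∧
        ∀ p : ℝ, 1 ≤ p → (p ≤ 4 / 3 ∨ 4 ≤ p) →
          eLpNorm (bergP W φ g) (ENNReal.ofReal p) (volume.restrict W) = ⊤) :=
  ⟨H838.main.1, fun _ hp1 hp2 => H521.clause2 hp1 hp2, H521.clause3, H521.clause4⟩

end Vale.Agent.Results.P142.BergmanProjection
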