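import Vale.Agent.P142.H838.Main

/-!
# P142: Brennan's conjecture with the sharp estimates at both critical exponents

(1) is Brennan's conjecture exactly as posed.  (2) is the end-point form with one absolute
constant: weak type at both critical exponents `s = 4` and `s = 4/3` (`t = -2` and `t = 2/3`) and
the resulting quantitative bounds of the integrals; (3) says that the weak type bounds are sharp;
(4) determines the universal integral means spectrum on `(-∞, -2]`, with uniform bounds of the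
integral means.
-/

open MeasureTheory Metric Set
open scoped ENNReal Real

namespace Vale.Agent.Results.P142.SharpWeakType

open Vale.Agent.P142

/-- **Brennan's conjecture, sharp end-point form.** -/
theorem result :
    -- (1) Brennan's conjecture, in both forms
    ((∀ (W : Set ℂ) (φ : ℂ → ℂ), IsOpen W → DifferentiableOn ℂ φ W → BijOn φ W (ball 0 1) →
      ∀ s : ℝ, 4 / 3 < s → s < 4 →
        ∫⁻ w in W, ENNReal.ofReal (‖deriv φ w‖ ^ s) < ⊤) ∧
    (∀ f : ℂ → ℂ, DifferentiableOn ℂ f (ball 0 1) → InjOn f (ball 0 1) →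
      ∀ t : ℝ, -2 < t → t < 2 / 3 →
        ∫⁻ z in ball (0 : ℂ) 1, ENNReal.ofReal (‖deriv f z‖ ^ t) < ⊤)) ∧
    -- (2) weak type at both critical exponents and strong type in between, one absolute constant
    (∃ C : ℝ, 0 < C ∧
      (∀ (W : Set ℂ) (φ : ℂ → ℂ), IsOpen W → DifferentiableOn ℂ φ W → BijOn φ W (ball 0 1) →
        ∀ a ∈ W, φ a = 0 →
        (∀ l : ℝ, 0 < l → volume {w | w ∈ W ∧ l * ‖deriv φ a‖ < ‖deriv φ w‖} ≤
          ENNReal.ofReal (C / ‖deriv φ a‖ ^ 2 * min (l ^ (-4 : ℝ)) (l ^ (-(4 / 3) : ℝ)))) ∧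
        (∀ s : ℝ, 4 / 3 < s → s < 4 → ∫⁻ w in W, ENNReal.ofReal (‖deriv φ w‖ ^ s) ≤
          ENNReal.ofReal (C * ‖deriv φ a‖ ^ (s - 2) / ((s - 4 / 3) * (4 - s))))) ∧
      (∀ f ∈ ClassS,
        (∀ l : ℝ, 0 < l →
          volume {z | z ∈ ball (0 : ℂ) 1 ∧ ‖deriv f z‖ < l} ≤ ENNReal.ofReal (C * l ^ 2) ∧
          volume {z | z ∈ ball (0 : ℂ) 1 ∧ l < ‖deriv f z‖} ≤
            ENNReal.ofReal (C * l ^ (-(2 / 3) : ℝ))) ∧
        (∀ t : ℝ, -2 < t → t < 2 / 3 →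
          ∫⁻ z in ball (0 : ℂ) 1, ENNReal.ofReal (‖deriv f z‖ ^ t) ≤
            ENNReal.ofReal (C / ((t + 2) * (2 / 3 - t)))))) ∧
    -- (3) the weak type bounds are sharp
    (∃ f ∈ ClassS,
      (∀ l : ℝ, 0 < l → l ≤ 1 → ENNReal.ofReal (π / 4 * l ^ 2) ≤
        volume {z | z ∈ ball (0 : ℂ) 1 ∧ ‖deriv f z‖ < l}) ∧
      (∀ l : ℝ, 1 ≤ l → ENNReal.ofReal (π / 4 * l ^ (-(2 / 3) : ℝ)) ≤
        volume {z | z ∈ ball (0 : ℂ) 1 ∧ l < ‖deriv f z‖})) ∧
    -- (4) the integral means spectrum on `(-∞, -2]`, and uniform bounds of the means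
    (∀ t : ℝ, t ≤ -2 → BS t = ((-t - 1 : ℝ) : EReal)) ∧
    (∀ t : ℝ, t < -2 → ∃ C : ℝ, ∀ f ∈ ClassS, ∀ r : ℝ, 0 ≤ r → r < 1 →
      intMean f t r ≤ C * (1 - r) ^ (t + 1)) ∧
    (∃ C : ℝ, ∀ f ∈ ClassS, ∀ r : ℝ, 0 ≤ r → r < 1 →
      intMean f (-2) r ≤ C * (1 - r)⁻¹ * (1 + Real.log (1 / (1 - r)))) :=
  H838.main

end Vale.Agent.Results.P142.SharpWeakType
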